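import Vale.Agent.P237.Quant.TailData.N14.tailN14P2Part0
import Vale.Agent.P237.Quant.TailData.N14.tailN14P2Part1
import Vale.Agent.P237.Quant.TailData.N14.tailN14P2Part2

/-!
Tail calibration tailN14P2 in dimension 14. The check. Generated data, checked by the kernel.
-/

set_option maxRecDepth 100000
set_option linter.all false

namespace Vale.Agent.P237.Quant.TailData

open TailCert


/-- The calibration. -/
noncomputable def tailN14P2 : Cfg :=
  tailN14P2Base.withIvals (List.flatten [tailN14P2L0, tailN14P2L1, tailN14P2L2, tailN14P2L3, tailN14P2L4, tailN14P2L5, tailN14P2L6, tailN14P2L7, tailN14P2L8])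

theorem tailN14P2_parts : [tailN14P2L0, tailN14P2L1, tailN14P2L2, tailN14P2L3, tailN14P2L4, tailN14P2L5, tailN14P2L6, tailN14P2L7, tailN14P2L8].Forall fun l => tailN14P2Base.partUsed tailN14P2Used l = true := by
  simp only [List.forall_cons, List.Forall]
  exact ⟨tailN14P2L0_ok, tailN14P2L1_ok, tailN14P2L2_ok, tailN14P2L3_ok, tailN14P2L4_ok, tailN14P2L5_ok, tailN14P2L6_ok, tailN14P2L7_ok, tailN14P2L8_ok⟩

theorem tailN14P2_check : tailN14P2.check = true :=
  Cfg.check_of_parts (by decide +kernel) tailN14P2_parts

end Vale.Agent.P237.Quant.TailData
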